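import Vale.Agent.P049.Main

namespace Vale.Agent.Results.P049.Ramanujan

theorem result (d : ℕ) (hd : 3 ≤ d) :
    ∃ f : List Bool → List Bool,
      (∃ tm : Turing.TM2ComputableInPolyTime (id : List Bool → List Bool)
        (id : List Bool → List Bool) f, ∀ k, Finite (tm.tm.Γ k)) ∧
      ∃ n0 : ℕ, ∀ n : ℕ, n0 ≤ n → Even (d * n) →
        ∃ G : SimpleGraph (Fin n), ∃ _ : DecidableRel G.Adj,
          f (List.replicate n true) =
            ((List.finRange n).flatMap fun u => (List.finRange n).map fun v => decide (G.Adj u v)) ∧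
          G.IsRegularOfDegree d ∧
          ∀ (μ : ℝ) (z : Fin n → ℝ), z ≠ 0 → ∑ v, z v = 0 → (G.adjMatrix ℝ).mulVec z = μ • z →
            |μ| ≤ 2 * √((d : ℝ) - 1) :=
  ⟨Vale.Agent.P049.alg d, Vale.Agent.P337.polyFun_of_TC (Vale.Agent.P049.tc_alg d),
    Vale.Agent.P049.main d hd⟩

end Vale.Agent.Results.P049.Ramanujan
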